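import Mathlib

open MeasureTheory Set Filter Topology

namespace Vale.Agent.P354r

/-- the transition function from 0 to 1 -/
noncomputable abbrev SS : ℝ → ℝ := Real.smoothTransition

lemma SS_cd : ContDiff ℝ 1 SS := Real.smoothTransition.contDiff (n := 1)

lemma SS_diff (v : ℝ) : DifferentiableAt ℝ SS v := SS_cd.differentiable (by norm_num) v

lemma dSS_cont : Continuous (deriv SS) := SS_cd.continuous_deriv (by norm_num)

lemma dSS_supp {v : ℝ} (hv : v ∉ Icc (0:ℝ) 1) : deriv SS v = 0 := by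
  rw [mem_Icc, not_and_or, not_le, not_le] at hv
  rcases hv with hv | hv
  · have h : SS =ᶠ[𝓝 v] fun _ => 0 := by
      filter_upwards [Iio_mem_nhds hv] with w hw
      exact Real.smoothTransition.zero_of_nonpos (le_of_lt hw)
    rw [h.deriv_eq, deriv_const]
  · have h : SS =ᶠ[𝓝 v] fun _ => 1 := by
      filter_upwards [Ioi_mem_nhds hv] with w hw
      exact Real.smoothTransition.one_of_one_le (le_of_lt hw)
    rw [h.deriv_eq, deriv_const]

lemma dSS_int : Integrable (fun v => |deriv SS v|) := by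
  refine dSS_cont.abs.integrable_of_hasCompactSupport ?_
  refine HasCompactSupport.of_support_subset_isCompact (isCompact_Icc (a := (0:ℝ)) (b := 1)) ?_
  intro v hv
  by_contra h
  exact hv (by simp only; rw [dSS_supp h, abs_zero])

/-- the total variation of the transition function -/
noncomputable def cS : ℝ := ∫ v, |deriv SS v|

lemma scaled_int {ε : ℝ} (hε : 0 < ε) (f : ℝ → ℝ) (hf : Integrable f) :
    Integrable (fun v => ε⁻¹ * f (v / ε)) ∧ ∫ v, ε⁻¹ * f (v / ε) = ∫ v, f v := by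
  constructor
  · exact (hf.comp_div hε.ne').const_mul _
  · rw [integral_const_mul, Measure.integral_comp_div f ε, abs_of_pos hε, smul_eq_mul]
    field_simp

/-- **Cut off functions** with bounded total variation. -/
theorem exists_cut (s t : ℝ) {ε : ℝ} (hε : 0 < ε) : ∃ ψ : ℝ → ℝ, ContDiff ℝ 1 ψ ∧
    (∀ v, 0 ≤ ψ v ∧ ψ v ≤ 1) ∧ (∀ v, v ∉ Icc s t → ψ v = 0) ∧
    (∀ v ∈ Icc (s + ε) (t - ε), ψ v = 1) ∧
    Integrable (fun v => |deriv ψ v|) ∧ ∫ v, |deriv ψ v| ≤ 2 * cS := by
  set ψ : ℝ → ℝ := fun v => SS ((v - s) / ε) * SS ((t - v) / ε) with hψ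
  have h1 : ContDiff ℝ 1 fun v : ℝ => SS ((v - s) / ε) :=
    SS_cd.comp (by fun_prop)
  have h2 : ContDiff ℝ 1 fun v : ℝ => SS ((t - v) / ε) :=
    SS_cd.comp (by fun_prop)
  have hcd : ContDiff ℝ 1 ψ := h1.mul h2
  have hd : ∀ v, |deriv ψ v| ≤ ε⁻¹ * |deriv SS ((v - s) / ε)| + ε⁻¹ * |deriv SS ((t - v) / ε)| := by
    intro v
    have e1 : HasDerivAt (fun v : ℝ => (v - s) / ε) ε⁻¹ v := by
      have := ((hasDerivAt_id v).sub_const s).div_const ε
      simpa [one_div] using this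
    have e2 : HasDerivAt (fun v : ℝ => (t - v) / ε) (-ε⁻¹) v := by
      have := ((hasDerivAt_id v).const_sub t).div_const ε
      simpa [neg_div, one_div] using this
    have e3 : HasDerivAt (fun v : ℝ => SS ((v - s) / ε)) (deriv SS ((v - s) / ε) * ε⁻¹) v :=
      (SS_diff _).hasDerivAt.comp v e1
    have e4 : HasDerivAt (fun v : ℝ => SS ((t - v) / ε)) (deriv SS ((t - v) / ε) * (-ε⁻¹)) v :=
      (SS_diff _).hasDerivAt.comp v e2
    have e5 := (e3.mul e4).deriv
    have e6 : deriv ψ v = deriv SS ((v - s) / ε) * ε⁻¹ * SS ((t - v) / ε) +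
      SS ((v - s) / ε) * (deriv SS ((t - v) / ε) * (-ε⁻¹)) := e5
    rw [e6]
    refine (abs_add_le _ _).trans ?_
    have hp : 0 < ε⁻¹ := by positivity
    have b1 : |SS ((t - v) / ε)| ≤ 1 := by
      rw [abs_of_nonneg (Real.smoothTransition.nonneg _)]
      exact Real.smoothTransition.le_one _
    have b2 : |SS ((v - s) / ε)| ≤ 1 := by
      rw [abs_of_nonneg (Real.smoothTransition.nonneg _)]
      exact Real.smoothTransition.le_one _
    have c1 : |deriv SS ((v - s) / ε) * ε⁻¹ * SS ((t - v) / ε)| ≤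
        ε⁻¹ * |deriv SS ((v - s) / ε)| := by
      rw [abs_mul, abs_mul, abs_of_pos hp]
      calc |deriv SS ((v - s) / ε)| * ε⁻¹ * |SS ((t - v) / ε)|
          ≤ |deriv SS ((v - s) / ε)| * ε⁻¹ * 1 := by gcongr
        _ = _ := by ring
    have c2 : |SS ((v - s) / ε) * (deriv SS ((t - v) / ε) * (-ε⁻¹))| ≤
        ε⁻¹ * |deriv SS ((t - v) / ε)| := by
      rw [abs_mul, abs_mul, abs_neg, abs_of_pos hp]
      calc |SS ((v - s) / ε)| * (|deriv SS ((t - v) / ε)| * ε⁻¹)
          ≤ 1 * (|deriv SS ((t - v) / ε)| * ε⁻¹) := by gcongr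
        _ = _ := by ring
    linarith
  obtain ⟨i1, j1⟩ := scaled_int hε (fun v => |deriv SS v|) dSS_int
  have i2 : Integrable (fun v => ε⁻¹ * |deriv SS ((v - s) / ε)|) := i1.comp_sub_right s
  have i3 : Integrable (fun v => ε⁻¹ * |deriv SS ((t - v) / ε)|) := i1.comp_sub_left t
  have j2 : ∫ v, ε⁻¹ * |deriv SS ((v - s) / ε)| = cS := by
    rw [integral_sub_right_eq_self (fun v => ε⁻¹ * |deriv SS (v / ε)|) s]
    exact j1
  have j3 : ∫ v, ε⁻¹ * |deriv SS ((t - v) / ε)| = cS := by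
    rw [integral_sub_left_eq_self (fun v => ε⁻¹ * |deriv SS (v / ε)|) volume t]
    exact j1
  have i4 : Integrable (fun v => |deriv ψ v|) := by
    refine (i2.add i3).mono' ?_ (Filter.Eventually.of_forall fun v => ?_)
    · exact (hcd.continuous_deriv (by norm_num)).abs.aestronglyMeasurable
    · rw [Real.norm_eq_abs, abs_abs]
      exact hd v
  refine ⟨ψ, hcd, fun v => ⟨?_, ?_⟩, ?_, ?_, i4, ?_⟩
  · exact mul_nonneg (Real.smoothTransition.nonneg _) (Real.smoothTransition.nonneg _)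
  · exact mul_le_one₀ (Real.smoothTransition.le_one _) (Real.smoothTransition.nonneg _)
      (Real.smoothTransition.le_one _)
  · intro v hv
    rw [mem_Icc, not_and_or, not_le, not_le] at hv
    rcases hv with hv | hv
    · have : SS ((v - s) / ε) = 0 := Real.smoothTransition.zero_of_nonpos
        (div_nonpos_of_nonpos_of_nonneg (by linarith) hε.le)
      simp only [hψ, this, zero_mul]
    · have : SS ((t - v) / ε) = 0 := Real.smoothTransition.zero_of_nonpos
        (div_nonpos_of_nonpos_of_nonneg (by linarith) hε.le)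
      simp only [hψ, this, mul_zero]
  · intro v hv
    have k1 : SS ((v - s) / ε) = 1 := Real.smoothTransition.one_of_one_le (by
      rw [le_div_iff₀ hε]; linarith [hv.1])
    have k2 : SS ((t - v) / ε) = 1 := Real.smoothTransition.one_of_one_le (by
      rw [le_div_iff₀ hε]; linarith [hv.2])
    simp only [hψ, k1, k2, mul_one]
  · calc ∫ v, |deriv ψ v| ≤ ∫ v, (ε⁻¹ * |deriv SS ((v - s) / ε)| +
        ε⁻¹ * |deriv SS ((t - v) / ε)|) := integral_mono i4 (i2.add i3) hd
      _ = 2 * cS := by rw [integral_add i2 i3, j2, j3]; ring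

/-- the integral against a cut off function -/
theorem cut_close {s t : ℝ} (hst : s < t) {I : ℝ → ℝ} (hI : ContinuousOn I (Icc s t)) {η : ℝ}
    (hη : 0 < η) : ∃ ψ : ℝ → ℝ, ContDiff ℝ 1 ψ ∧
    (∀ v, 0 ≤ ψ v ∧ ψ v ≤ 1) ∧ (∀ v, v ∉ Icc s t → ψ v = 0) ∧
    Integrable (fun v => |deriv ψ v|) ∧ ∫ v, |deriv ψ v| ≤ 2 * cS ∧
    |∫ v in s..t, I v| ≤ |∫ v, ψ v * I v| + η := by
  obtain ⟨M, hM⟩ := isCompact_Icc.exists_bound_of_continuousOn hI
  have hM0 : 0 ≤ M := (norm_nonneg _).trans (hM s ⟨le_rfl, hst.le⟩)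
  set ε : ℝ := min ((t - s) / 2) (η / (2 * M + 1)) with hε
  have hε0 : 0 < ε := lt_min (by linarith) (by positivity)
  have hε1 : ε ≤ (t - s) / 2 := min_le_left _ _
  have hε2 : 2 * M * ε ≤ η := by
    have h1 : ε ≤ η / (2 * M + 1) := min_le_right _ _
    rw [le_div_iff₀ (by positivity)] at h1
    nlinarith
  obtain ⟨ψ, h1, h2, h3, h4, h5, h6⟩ := exists_cut s t hε0
  refine ⟨ψ, h1, h2, h3, h5, h6, ?_⟩
  have e1 : ∫ v, ψ v * I v = ∫ v in s..t, ψ v * I v := by
    rw [intervalIntegral.integral_of_le hst.le, ← integral_Icc_eq_integral_Ioc]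
    symm
    exact setIntegral_eq_integral_of_forall_compl_eq_zero fun v hv => by rw [h3 v hv, zero_mul]
  have hIu : ContinuousOn I (uIcc s t) := by rwa [uIcc_of_le hst.le]
  have iI : IntervalIntegrable I volume s t := hIu.intervalIntegrable
  have iψ : IntervalIntegrable (fun v => ψ v * I v) volume s t :=
    (h1.continuous.continuousOn.mul hIu).intervalIntegrable
  have ig : ∀ a b, a ∈ Icc s t → b ∈ Icc s t →
      IntervalIntegrable (fun v => (1 - ψ v) * I v) volume a b := by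
    intro a b ha hb
    refine ContinuousOn.intervalIntegrable ?_
    refine (continuousOn_const.sub h1.continuous.continuousOn).mul (hI.mono ?_)
    exact ordConnected_Icc.uIcc_subset ha hb
  have e2 : (∫ v in s..t, I v) = (∫ v in s..t, ψ v * I v) + ∫ v in s..t, (1 - ψ v) * I v := by
    rw [← intervalIntegral.integral_add iψ (ig s t ⟨le_rfl, hst.le⟩ ⟨hst.le, le_rfl⟩)]
    congr 1
    funext v
    ring
  have ma : s + ε ∈ Icc s t := ⟨by linarith, by linarith⟩
  have mb : t - ε ∈ Icc s t := ⟨by linarith, by linarith⟩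
  have e3 : ∫ v in s..t, (1 - ψ v) * I v = (∫ v in s..(s + ε), (1 - ψ v) * I v) +
      (∫ v in (s + ε)..(t - ε), (1 - ψ v) * I v) + ∫ v in (t - ε)..t, (1 - ψ v) * I v := by
    rw [intervalIntegral.integral_add_adjacent_intervals
      (ig _ _ ⟨le_rfl, hst.le⟩ ma) (ig _ _ ma mb),
      intervalIntegral.integral_add_adjacent_intervals
      (ig _ _ ⟨le_rfl, hst.le⟩ mb) (ig _ _ mb ⟨hst.le, le_rfl⟩)]
  have bd : ∀ v ∈ Icc s t, ‖(1 - ψ v) * I v‖ ≤ M := by
    intro v hv
    rw [norm_mul]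
    have k1 : ‖1 - ψ v‖ ≤ 1 := by
      rw [Real.norm_eq_abs, abs_le]
      constructor <;> linarith [(h2 v).1, (h2 v).2]
    calc ‖1 - ψ v‖ * ‖I v‖ ≤ 1 * M := mul_le_mul k1 (hM v hv) (norm_nonneg _) zero_le_one
      _ = M := one_mul M
  have f1 : |∫ v in s..(s + ε), (1 - ψ v) * I v| ≤ M * ε := by
    have := intervalIntegral.norm_integral_le_of_norm_le_const (a := s) (b := s + ε) (C := M)
      (f := fun v => (1 - ψ v) * I v) (fun v hv => by
        rw [uIoc_of_le (by linarith)] at hv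
        exact bd v ⟨hv.1.le, by linarith [hv.2]⟩)
    rw [add_sub_cancel_left, abs_of_pos hε0] at this
    exact this
  have f3 : |∫ v in (t - ε)..t, (1 - ψ v) * I v| ≤ M * ε := by
    have := intervalIntegral.norm_integral_le_of_norm_le_const (a := t - ε) (b := t) (C := M)
      (f := fun v => (1 - ψ v) * I v) (fun v hv => by
        rw [uIoc_of_le (by linarith)] at hv
        exact bd v ⟨by linarith [hv.1], hv.2⟩)
    rw [sub_sub_cancel, abs_of_pos hε0] at this
    exact this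
  have f2 : ∫ v in (s + ε)..(t - ε), (1 - ψ v) * I v = 0 := by
    refine intervalIntegral.integral_zero_ae (Filter.Eventually.of_forall fun v hv => ?_)
    rw [uIoc_of_le (by linarith)] at hv
    rw [h4 v ⟨hv.1.le, hv.2⟩]
    ring
  rw [e1, e2, e3, f2, add_zero]
  have g1 := abs_add_le (∫ v in s..t, ψ v * I v) ((∫ v in s..(s + ε), (1 - ψ v) * I v) +
    ∫ v in (t - ε)..t, (1 - ψ v) * I v)
  have g2 := abs_add_le (∫ v in s..(s + ε), (1 - ψ v) * I v)
    (∫ v in (t - ε)..t, (1 - ψ v) * I v)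
  linarith

end Vale.Agent.P354r
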