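import Vale.Agent.P354.H251.DefsW

open scoped ContDiff
open MeasureTheory Set Filter Topology

namespace Vale.Agent.P354r

open Vale.Agent.P354n

/-- The vector with components a in the frame du, L, d1, d2 at x, where L = dv + s1 d1 + s2 d2 is
the null vector normal to the spheres of constant u and v, if w1 = w2 = 0. -/
def fr (C : ℕ → R4 → ℝ) (x a : R4) : R4 :=
  (cu a, cv a, c1 a + C 4 x * cv a, c2 a + C 5 x * cv a)

/-- The component of the curvature of the metric g with connection G on the four vectors with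
constant components m 0, m 1, m 2, m 3 in the frame. -/
noncomputable def curv (g : R4 → R4 → R4 → ℝ) (G : R4 → R4 → R4 → R4) (C : ℕ → R4 → ℝ)
    (m : Fin 4 → R4) (x : R4) : ℝ :=
  Riem g G x (fr C x (m 0)) (fr C x (m 1)) (fr C x (m 2)) (fr C x (m 3))

/-- Near the point x of v = 0, F is not bounded as a distribution of first order: for functions
phi with support in the part v < 0 of the cube of radius c about x, the integral of phi F is not
bounded by a multiple of the integral of (1 + k(v)) |phi| + |d phi|; or, more specially, for some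
function phi of u, theta1, theta2, the integral of phi F over s < v < t is not bounded as s and t
tend to 0. -/
def IsBig (k : ℝ → ℝ) (x : R4) (c : ℝ) (F : R4 → ℝ) : Prop :=
  (∀ L : ℝ, ∃ φ : R4 → ℝ, ContDiff ℝ 1 φ ∧ tsupport φ ⊆ nullBox x c ∧
    L * ∫ y, ((1 + k (cv y)) * |φ y| + ‖fderiv ℝ φ y‖) < |∫ y, φ y * F y|) ∨
  ∃ φ : ℝ × ℝ × ℝ → ℝ, ContDiff ℝ 1 φ ∧ tsupport φ ⊆ Metric.ball (x.1, x.2.2) c ∧
    ∀ L : ℝ, ∃ s ∈ Ioo (-c) 0, ∃ t ∈ Ioo s 0,
      L < |∫ y in {y : R4 | s < cv y ∧ cv y < t}, φ (y.1, y.2.2) * F y|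

/-- The curve a ends at a point z of a null hypersurface v = 0 at which the curvature blows up:
the v derivatives of gAB and om are bounded by an integrable function k(v), but near every point
of v = 0 some component of the curvature is not bounded as a distribution of first order. -/
def EndsAtFront (M : Spc) (a : ℝ → M.pt) : Prop :=
  ∃ e C z r K k G, IsDNBox M e C (nullBox z r) r K k (fun _ => K) ∧ cv z = 0 ∧
    EndsAt a e (nullBox z r) z ∧
    (∀ x ∈ nullBox z r, C 6 x = 0 ∧ C 7 x = 0 ∧ IsConn (M.g e) G x) ∧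
    ∀ x, cv x = 0 → ‖x - z‖ < r → ∀ c > 0, ∃ m, IsBig k x c (curv (M.g e) G C m)

/-- The curve a ends at a point z of the sphere u = v = 0 where the null hypersurfaces u = 0 and
v = 0 meet; curves that end elsewhere on these end where the curvature blows up. -/
def EndsAtCorner (M : Spc) (a : ℝ → M.pt) : Prop :=
  ∃ e C z r K k, IsDNBox M e C (cornerBox z r) r K k k ∧ cu z = 0 ∧ cv z = 0 ∧
    EndsAt a e (cornerBox z r) z ∧ ∀ b, IsFutureCurve M 0 (Ico 0 1) b → ∀ y,
      EndsAt b e (cornerBox z r) y → ‖y - z‖ < r → cu y * cv y = 0 → cu y + cv y < 0 →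
      EndsAtFront M b

/-- The three kinds of ends of future timelike curves. -/
def Ends (M : Spc) (a : ℝ → M.pt) : Prop :=
  EndsAtFront M a ∨ EndsAtCorner M a ∨ IsFar M a

/-- Every future timelike curve without future end point has one of these kinds of ends. -/
def AllEnd (M : Spc) : Prop :=
  ∀ a, IsFutureCurve M 0 (Ico 0 1) a → (∀ x, ¬ Tendsto a (𝓝[<] 1) (𝓝 x)) → Ends M a

end Vale.Agent.P354r
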