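import Vale.Agent.P354.Bdl.B5
import Vale.Agent.P354.H298.DefsR
import Vale.Agent.P354.H298.Cut

open scoped ContDiff
open MeasureTheory Set Filter Topology

namespace Vale.Agent.P354r

open Vale.Agent.P354n (R4 cv nullBox)

/-- (v,(u,theta1,theta2)) to (u,v,theta1,theta2) -/
def qq (x : ℝ × ℝ × ℝ × ℝ) : R4 := (x.2.1, x.1, x.2.2)

lemma qq_cont : Continuous qq := by unfold qq; fun_prop

lemma qq_mp : MeasurePreserving qq := P354p.mp_sw (α := ℝ) (β := ℝ) (γ := ℝ × ℝ)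

lemma qq_emb : MeasurableEmbedding qq := by
  have h1 : Measurable qq := qq_cont.measurable
  exact (⟨⟨qq, qq, fun _ => rfl, fun _ => rfl⟩, h1, h1⟩ : (ℝ × ℝ × ℝ × ℝ) ≃ᵐ R4).measurableEmbedding

/-- the projection to u, theta1, theta2 -/
noncomputable def pr : R4 →L[ℝ] ℝ × ℝ × ℝ :=
  (ContinuousLinearMap.fst ℝ ℝ (ℝ × ℝ × ℝ)).prod
    ((ContinuousLinearMap.snd ℝ ℝ (ℝ × ℝ)).comp (ContinuousLinearMap.snd ℝ ℝ (ℝ × ℝ × ℝ)))

lemma pr_apply (x : R4) : pr x = (x.1, x.2.2) := rfl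

noncomputable def pv : R4 →L[ℝ] ℝ :=
  (ContinuousLinearMap.fst ℝ ℝ (ℝ × ℝ)).comp (ContinuousLinearMap.snd ℝ ℝ (ℝ × ℝ × ℝ))

lemma pv_apply (x : R4) : pv x = x.2.1 := rfl

lemma pr_norm : ‖pr‖ ≤ 1 := by
  refine ContinuousLinearMap.opNorm_le_bound _ zero_le_one fun x => ?_
  rw [one_mul, pr_apply]
  have h1 : ‖x.1‖ ≤ ‖x‖ := norm_fst_le x
  have h2 : ‖x.2.2‖ ≤ ‖x‖ := (norm_snd_le x.2).trans (norm_snd_le x)
  exact max_le h1 h2

lemma pv_norm : ‖pv‖ ≤ 1 := by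
  refine ContinuousLinearMap.opNorm_le_bound _ zero_le_one fun x => ?_
  rw [one_mul, pv_apply]
  exact (norm_fst_le x.2).trans (norm_snd_le x)

/-- the product of a function of v and a function of the other coordinates -/
def tens (ψ : ℝ → ℝ) (φ : ℝ × ℝ × ℝ → ℝ) (x : R4) : ℝ := ψ x.2.1 * φ (x.1, x.2.2)

variable {ψ : ℝ → ℝ} {φ : ℝ × ℝ × ℝ → ℝ}

lemma tens_cd (h1 : ContDiff ℝ 1 ψ) (h2 : ContDiff ℝ 1 φ) : ContDiff ℝ 1 (tens ψ φ) :=
  (h1.comp pv.contDiff).mul (h2.comp pr.contDiff)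

lemma tens_norm (h1 : ContDiff ℝ 1 ψ) (h2 : ContDiff ℝ 1 φ) (x : R4) :
    ‖fderiv ℝ (tens ψ φ) x‖ ≤ |ψ x.2.1| * ‖fderiv ℝ φ (x.1, x.2.2)‖ +
      |deriv ψ x.2.1| * |φ (x.1, x.2.2)| := by
  have d1 : HasFDerivAt (fun x : R4 => ψ x.2.1)
      (deriv ψ x.2.1 • pv) x := by
    have e1 : HasDerivAt ψ (deriv ψ x.2.1) (pv x) :=
      (h1.differentiable (by norm_num) x.2.1).hasDerivAt
    exact e1.comp_hasFDerivAt x pv.hasFDerivAt
  have d2 : HasFDerivAt (fun x : R4 => φ (x.1, x.2.2))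
      ((fderiv ℝ φ (x.1, x.2.2)).comp pr) x := by
    have e1 : HasFDerivAt φ (fderiv ℝ φ (x.1, x.2.2)) (pr x) :=
      (h2.differentiable (by norm_num) (x.1, x.2.2)).hasFDerivAt
    exact e1.comp x pr.hasFDerivAt
  have d3 := (d1.mul d2).fderiv
  have d4 : fderiv ℝ (tens ψ φ) x = ψ x.2.1 • ((fderiv ℝ φ (x.1, x.2.2)).comp pr) +
    φ (x.1, x.2.2) • (deriv ψ x.2.1 • pv) := d3
  rw [d4]
  refine (norm_add_le _ _).trans ?_
  rw [norm_smul, norm_smul, norm_smul, Real.norm_eq_abs, Real.norm_eq_abs, Real.norm_eq_abs]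
  have b1 : ‖(fderiv ℝ φ (x.1, x.2.2)).comp pr‖ ≤ ‖fderiv ℝ φ (x.1, x.2.2)‖ := by
    refine (ContinuousLinearMap.opNorm_comp_le _ _).trans ?_
    calc _ ≤ ‖fderiv ℝ φ (x.1, x.2.2)‖ * 1 := by
          gcongr
          exact pr_norm
      _ = _ := mul_one _
  have b2 : |φ (x.1, x.2.2)| * (|deriv ψ x.2.1| * ‖pv‖) ≤
      |deriv ψ x.2.1| * |φ (x.1, x.2.2)| := by
    calc |φ (x.1, x.2.2)| * (|deriv ψ x.2.1| * ‖pv‖) ≤
        |φ (x.1, x.2.2)| * (|deriv ψ x.2.1| * 1) := by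
          gcongr
          exact pv_norm
      _ = _ := by ring
  have b3 : |ψ x.2.1| * ‖(fderiv ℝ φ (x.1, x.2.2)).comp pr‖ ≤
      |ψ x.2.1| * ‖fderiv ℝ φ (x.1, x.2.2)‖ := by gcongr
  linarith

/-- the region over O for -c < v < 0 -/
def Rg (O : Set (ℝ × ℝ × ℝ)) (c : ℝ) : Set R4 := {x | (x.1, x.2.2) ∈ O ∧ -c < x.2.1 ∧ x.2.1 < 0}

lemma Rg_open {O : Set (ℝ × ℝ × ℝ)} (hO : IsOpen O) (c : ℝ) : IsOpen (Rg O c) := by
  have h1 : IsOpen ((fun x : R4 => ((x.1, x.2.2) : ℝ × ℝ × ℝ)) ⁻¹' O) :=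
    hO.preimage (by fun_prop)
  have h2 : IsOpen {x : R4 | -c < x.2.1} := isOpen_lt continuous_const (by fun_prop)
  have h3 : IsOpen {x : R4 | x.2.1 < 0} := isOpen_lt (by fun_prop) continuous_const
  exact h1.inter (h2.inter h3)

lemma tens_supp {s t : ℝ} (h : ∀ v, v ∉ Icc s t → ψ v = 0) (x : R4)
    (hx : x ∉ {x : R4 | x.2.1 ∈ Icc s t ∧ (x.1, x.2.2) ∈ tsupport φ}) : tens ψ φ x = 0 := by
  by_contra h0
  apply hx
  have h1 : ψ x.2.1 ≠ 0 := left_ne_zero_of_mul h0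
  have h2 : φ (x.1, x.2.2) ≠ 0 := right_ne_zero_of_mul h0
  exact ⟨by_contra fun h3 => h1 (h _ h3), subset_tsupport φ h2⟩

lemma tens_tsupp {s t : ℝ} (h : ∀ v, v ∉ Icc s t → ψ v = 0) :
    tsupport (tens ψ φ) ⊆ {x : R4 | x.2.1 ∈ Icc s t ∧ (x.1, x.2.2) ∈ tsupport φ} := by
  refine closure_minimal ?_ ?_
  · intro x hx
    by_contra h1
    exact hx (tens_supp h x h1)
  · exact (isClosed_Icc.preimage (by fun_prop)).inter
      ((isClosed_tsupport φ).preimage (by fun_prop))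

lemma tens_cpt {s t : ℝ} (h : ∀ v, v ∉ Icc s t → ψ v = 0) (hφ : HasCompactSupport φ) :
    HasCompactSupport (tens ψ φ) := by
  have hK : IsCompact (qq '' (Icc s t ×ˢ tsupport φ)) :=
    (isCompact_Icc.prod hφ).image qq_cont
  refine HasCompactSupport.of_support_subset_isCompact hK ?_
  intro x hx
  have h1 : x ∈ {x : R4 | x.2.1 ∈ Icc s t ∧ (x.1, x.2.2) ∈ tsupport φ} := by
    by_contra h1
    exact hx (tens_supp h x h1)
  exact ⟨(x.2.1, x.1, x.2.2), h1, rfl⟩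

lemma slab_null (s : ℝ) : ∀ᵐ y : R4, y.2.1 ≠ s := by
  have h1 : ∀ᵐ v : ℝ, v ≠ s := by
    rw [ae_iff]
    have : {a : ℝ | ¬ a ≠ s} = {s} := by ext; simp
    rw [this]
    exact measure_singleton s
  have h2 : ∀ᵐ w : ℝ × ℝ × ℝ × ℝ, w.1 ≠ s := by
    have hq : Measure.QuasiMeasurePreserving (Prod.fst : ℝ × (ℝ × ℝ × ℝ) → ℝ) volume volume :=
      Measure.quasiMeasurePreserving_fst
    exact hq.ae h1
  have h3 : ∀ᵐ y : R4, (qq y).1 ≠ s := qq_mp.quasiMeasurePreserving.ae h2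
  exact h3

lemma slab_meas (s t : ℝ) : MeasurableSet {y : R4 | s < cv y ∧ cv y < t} := by
  have h : Measurable fun y : R4 => cv y := by
    have : Continuous fun y : R4 => y.2.1 := by fun_prop
    exact this.measurable
  exact (measurableSet_lt measurable_const h).inter (measurableSet_lt h measurable_const)

/-- Sharp cut offs are limits of smooth ones. -/
theorem slab_le {F : R4 → ℝ} {φ : ℝ × ℝ × ℝ → ℝ} {s t B : ℝ} (hB0 : 0 ≤ B)
    (hb : ∀ ψ : ℝ → ℝ, ContDiff ℝ 1 ψ → (∀ v, 0 ≤ ψ v ∧ ψ v ≤ 1) → (∀ v, v ∉ Icc s t → ψ v = 0) →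
      Integrable (fun v => |deriv ψ v|) → ∫ v, |deriv ψ v| ≤ 2 * cS →
      |∫ y, tens ψ φ y * F y| ≤ B) :
    |∫ y in {y : R4 | s < cv y ∧ cv y < t}, φ (y.1, y.2.2) * F y| ≤ B := by
  by_cases hi : IntegrableOn (fun y : R4 => φ (y.1, y.2.2) * F y) {y : R4 | s < cv y ∧ cv y < t}
  swap
  · rw [integral_undef hi, abs_zero]; exact hB0
  set T : Set R4 := {y : R4 | s < cv y ∧ cv y < t} with hT
  have hTm : MeasurableSet T := slab_meas s t
  set f : R4 → ℝ := T.indicator fun y => φ (y.1, y.2.2) * F y with hf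
  have hfi : Integrable f := (integrable_indicator_iff hTm).2 hi
  choose ψ q1 q2 q3 q4 q5 q6 using fun n : ℕ => exists_cut s t (ε := 1 / ((n : ℝ) + 1)) (by positivity)
  have hae : ∀ᵐ y : R4, ∀ n, tens (ψ n) φ y * F y = ψ n y.2.1 * f y := by
    filter_upwards [slab_null s, slab_null t] with y h1 h2 n
    by_cases hy : y ∈ T
    · rw [hf, indicator_of_mem hy]
      show ψ n y.2.1 * φ (y.1, y.2.2) * F y = _
      ring
    · rw [hf, indicator_of_notMem hy, mul_zero]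
      have h3 : ψ n y.2.1 = 0 := by
        apply q3
        rintro ⟨h4, h5⟩
        exact hy ⟨lt_of_le_of_ne h4 (Ne.symm h1), lt_of_le_of_ne h5 h2⟩
      show ψ n y.2.1 * φ (y.1, y.2.2) * F y = 0
      rw [h3, zero_mul, zero_mul]
  have hlim : Tendsto (fun n => ∫ y, ψ n y.2.1 * f y) atTop (𝓝 (∫ y, f y)) := by
    refine tendsto_integral_of_dominated_convergence (fun y => ‖f y‖) ?_ hfi.norm ?_ ?_
    · intro n
      have : Continuous fun y : R4 => ψ n y.2.1 := (q1 n).continuous.comp (by fun_prop)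
      exact this.aestronglyMeasurable.mul hfi.aestronglyMeasurable
    · intro n
      refine Filter.Eventually.of_forall fun y => ?_
      rw [norm_mul]
      have : ‖ψ n y.2.1‖ ≤ 1 := by
        rw [Real.norm_eq_abs, abs_of_nonneg (q2 n _).1]
        exact (q2 n _).2
      calc ‖ψ n y.2.1‖ * ‖f y‖ ≤ 1 * ‖f y‖ := by gcongr
        _ = _ := one_mul _
    · refine Filter.Eventually.of_forall fun y => ?_
      by_cases hy : y ∈ T
      · have h1 : ∀ᶠ n : ℕ in atTop, ψ n y.2.1 = 1 := by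
          have hd : 0 < min (cv y - s) (t - cv y) :=
            lt_min (by linarith [hy.1]) (by linarith [hy.2])
          have h2 : Tendsto (fun n : ℕ => 1 / ((n : ℝ) + 1)) atTop (𝓝 0) :=
            tendsto_one_div_add_atTop_nhds_zero_nat
          filter_upwards [h2.eventually_lt_const hd] with n hn
          apply q4
          have h3 := hn.trans_le (min_le_left _ _)
          have h4 := hn.trans_le (min_le_right _ _)
          have e : cv y = y.2.1 := rfl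
          rw [e] at h3 h4
          constructor <;> linarith
        refine tendsto_const_nhds.congr' ?_
        filter_upwards [h1] with n hn
        rw [hn, one_mul]
      · have h1 : f y = 0 := indicator_of_notMem hy _
        simp only [h1, mul_zero]
        exact tendsto_const_nhds
  have e1 : ∫ y in T, φ (y.1, y.2.2) * F y = ∫ y, f y := (integral_indicator hTm).symm
  rw [e1]
  refine le_of_tendsto hlim.abs (Filter.Eventually.of_forall fun n => ?_)
  have h1 := hb (ψ n) (q1 n) (q2 n) (q3 n) (q5 n) (q6 n)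
  have e2 : ∫ y, tens (ψ n) φ y * F y = ∫ y, ψ n y.2.1 * f y := by
    refine integral_congr_ae ?_
    filter_upwards [hae] with y hy
    exact hy n
  rw [← e2]
  exact h1

/-- A function which is bounded as a distribution of first order has bounded averages over
v intervals. -/
theorem avg_bdd {O : Set (ℝ × ℝ × ℝ)} {c : ℝ} {k : ℝ → ℝ} (hkm : Measurable k)
    (hk : IntegrableOn k (Ioo (-c) 0)) {F : R4 → ℝ} {L : ℝ}
    (hL : 0 ≤ L)
    (hb : ∀ φ : R4 → ℝ, ContDiff ℝ 1 φ → HasCompactSupport φ → tsupport φ ⊆ Rg O c →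
      |∫ y, φ y * F y| ≤ L * ∫ y, ((1 + k (cv y)) * |φ y| + ‖fderiv ℝ φ y‖))
    (hφ : ContDiff ℝ 1 φ) (hφc : HasCompactSupport φ) (hφO : tsupport φ ⊆ O) :
    ∃ B, ∀ s ∈ Ioo (-c) 0, ∀ t ∈ Ioo s 0,
      |∫ y in {y : R4 | s < cv y ∧ cv y < t}, φ (y.1, y.2.2) * F y| ≤ B := by
  have hP3 : Measure.IsAddHaarMeasure (volume : Measure (ℝ × ℝ × ℝ)) := P354w.haarP3
  set N0 : ℝ := ∫ y, |φ y| with hN0
  set N1 : ℝ := ∫ y, ‖fderiv ℝ φ y‖ with hN1
  have iφ : Integrable (fun y => |φ y|) :=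
    (hφ.continuous.integrable_of_hasCompactSupport hφc).abs
  have iD : Integrable (fun y => ‖fderiv ℝ φ y‖) :=
    ((hφ.continuous_fderiv (by norm_num)).norm).integrable_of_hasCompactSupport
      (hφc.fderiv (𝕜 := ℝ)).norm
  have hN0' : 0 ≤ N0 := integral_nonneg fun _ => abs_nonneg _
  have hN1' : 0 ≤ N1 := integral_nonneg fun _ => norm_nonneg _
  set Kc : ℝ := ∫ v in Ioo (-c) 0, (1 + |k v|) with hKc
  have hKc0 : 0 ≤ Kc := integral_nonneg fun _ => by positivity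
  have hcS : 0 ≤ cS := integral_nonneg fun _ => abs_nonneg _
  have ik : IntegrableOn (fun v => 1 + |k v|) (Ioo (-c) 0) := by
    refine Integrable.add ?_ hk.abs
    exact integrableOn_const (by simp) (by simp)
  refine ⟨L * (Kc * N0 + Kc * N1 + 2 * cS * N0), fun s hs t ht =>
    slab_le (by positivity) fun ψ p1 p2 p3 p4 p5 => ?_⟩
  have hst : s < t := ht.1
  have hsub : tsupport (tens ψ φ) ⊆ Rg O c := fun x hx => by
    obtain ⟨h1, h2⟩ := tens_tsupp p3 hx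
    exact ⟨hφO h2, by linarith [hs.1, h1.1], by linarith [h1.2, ht.2]⟩
  have hcpt := tens_cpt p3 hφc
  have hcd := tens_cd p1 hφ
  have hmain := hb _ hcd hcpt hsub
  -- right side
  have hψs : ∀ v, ψ v ≠ 0 → v ∈ Ioo (-c) 0 := by
    intro v hv
    have h1 : v ∈ Icc s t := by_contra fun h => hv (p3 v h)
    exact ⟨by linarith [hs.1, h1.1], by linarith [h1.2, ht.2]⟩
  have hψi : Integrable ψ := by
    refine p1.continuous.integrable_of_hasCompactSupport
      (HasCompactSupport.of_support_subset_isCompact (isCompact_Icc (a := s) (b := t)) ?_)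
    intro v hv
    by_contra h
    exact hv (p3 v h)
  have a1 : Integrable (fun v => (1 + |k v|) * ψ v) ∧ ∫ v, (1 + |k v|) * ψ v ≤ Kc := by
    have e1 : ∀ v, (1 + |k v|) * ψ v = (Ioo (-c) 0).indicator (fun v => (1 + |k v|)) v * ψ v := by
      intro v
      by_cases hv : v ∈ Ioo (-c) 0
      · rw [indicator_of_mem hv]
      · have : ψ v = 0 := by_contra fun h => hv (hψs v h)
        rw [this, mul_zero, mul_zero]
    have ik' : Integrable ((Ioo (-c) 0).indicator fun v => (1 + |k v|)) :=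
      (integrable_indicator_iff measurableSet_Ioo).2 ik
    have i1 : Integrable (fun v => (Ioo (-c) 0).indicator (fun v => (1 + |k v|)) v * ψ v) := by
      refine ik'.mul_bdd (c := 1) p1.continuous.aestronglyMeasurable
        (Filter.Eventually.of_forall fun v => ?_)
      rw [Real.norm_eq_abs, abs_of_nonneg (p2 v).1]
      exact (p2 v).2
    simp only [e1]
    refine ⟨i1, ?_⟩
    rw [hKc, ← integral_indicator measurableSet_Ioo]
    refine integral_mono i1 ik' fun v => ?_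
    have h0 : 0 ≤ (Ioo (-c) 0).indicator (fun v => (1 + |k v|)) v :=
      indicator_nonneg (fun v _ => by positivity) v
    calc _ ≤ (Ioo (-c) 0).indicator (fun v => (1 + |k v|)) v * 1 :=
          mul_le_mul_of_nonneg_left (p2 v).2 h0
      _ = _ := mul_one _
  have a2 : ∫ v, ψ v ≤ Kc := by
    refine le_trans ?_ a1.2
    refine integral_mono hψi a1.1 fun v => ?_
    have := (p2 v).1
    have := abs_nonneg (k v)
    simp only
    nlinarith
  have i1 := a1.1.mul_prod iφ (ν := volume)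
  have i2 := hψi.mul_prod iD (ν := volume)
  have i3 := p4.mul_prod iφ (ν := volume)
  have hright : ∫ y, ((1 + k (cv y)) * |tens ψ φ y| + ‖fderiv ℝ (tens ψ φ) y‖) ≤
      Kc * N0 + Kc * N1 + 2 * cS * N0 := by
    rw [← qq_mp.integral_comp qq_emb]
    have hle : ∀ w : ℝ × ℝ × ℝ × ℝ, ‖(1 + k (cv (qq w))) * |tens ψ φ (qq w)| +
        ‖fderiv ℝ (tens ψ φ) (qq w)‖‖ ≤ ((1 + |k w.1|) * ψ w.1) * |φ w.2| +
          ψ w.1 * ‖fderiv ℝ φ w.2‖ + |deriv ψ w.1| * |φ w.2| := by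
      intro w
      have h1 := tens_norm p1 hφ (qq w)
      have e1 : (qq w).2.1 = w.1 := rfl
      have e2 : ((qq w).1, (qq w).2.2) = w.2 := rfl
      rw [e1, e2, abs_of_nonneg (p2 _).1] at h1
      have h2 : ‖(1 + k (cv (qq w))) * |tens ψ φ (qq w)|‖ ≤
          ((1 + |k w.1|) * ψ w.1) * |φ w.2| := by
        have e3 : cv (qq w) = w.1 := rfl
        have e4 : tens ψ φ (qq w) = ψ w.1 * φ w.2 := rfl
        rw [e3, e4, Real.norm_eq_abs, abs_mul, abs_abs, abs_mul, abs_of_nonneg (p2 _).1,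
          ← mul_assoc]
        have h3 : |1 + k w.1| * ψ w.1 ≤ (1 + |k w.1|) * ψ w.1 := by
          refine mul_le_mul_of_nonneg_right ?_ (p2 _).1
          refine (abs_add_le _ _).trans ?_
          rw [abs_one]
        exact mul_le_mul_of_nonneg_right h3 (abs_nonneg _)
      refine (norm_add_le _ _).trans ?_
      rw [norm_norm]
      linarith
    have isum := (i1.add i2).add i3
    have hval : ∫ w : ℝ × ℝ × ℝ × ℝ, (((1 + |k w.1|) * ψ w.1) * |φ w.2| +
          ψ w.1 * ‖fderiv ℝ φ w.2‖ + |deriv ψ w.1| * |φ w.2|) ≤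
        Kc * N0 + Kc * N1 + 2 * cS * N0 := by
      have e1 : ∫ w : ℝ × ℝ × ℝ × ℝ, (((1 + |k w.1|) * ψ w.1) * |φ w.2| +
          ψ w.1 * ‖fderiv ℝ φ w.2‖ + |deriv ψ w.1| * |φ w.2|) =
          (∫ v, (1 + |k v|) * ψ v) * N0 + (∫ v, ψ v) * N1 + (∫ v, |deriv ψ v|) * N0 := by
        have q1 : ∫ w : ℝ × ℝ × ℝ × ℝ, ((1 + |k w.1|) * ψ w.1) * |φ w.2| =
          (∫ v, (1 + |k v|) * ψ v) * N0 := integral_prod_mul (μ := (volume : Measure ℝ))
            (ν := (volume : Measure (ℝ × ℝ × ℝ))) (fun v => (1 + |k v|) * ψ v) fun y => |φ y|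
        have q2 : ∫ w : ℝ × ℝ × ℝ × ℝ, ψ w.1 * ‖fderiv ℝ φ w.2‖ =
          (∫ v, ψ v) * N1 := integral_prod_mul (μ := (volume : Measure ℝ))
            (ν := (volume : Measure (ℝ × ℝ × ℝ))) (fun v => ψ v) fun y => ‖fderiv ℝ φ y‖
        have q3 : ∫ w : ℝ × ℝ × ℝ × ℝ, |deriv ψ w.1| * |φ w.2| =
          (∫ v, |deriv ψ v|) * N0 := integral_prod_mul (μ := (volume : Measure ℝ))
            (ν := (volume : Measure (ℝ × ℝ × ℝ))) (fun v => |deriv ψ v|) fun y => |φ y|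
        rw [← q1, ← q2, ← q3]
        have r1 : ∫ w : ℝ × ℝ × ℝ × ℝ, (((1 + |k w.1|) * ψ w.1) * |φ w.2| +
          ψ w.1 * ‖fderiv ℝ φ w.2‖ + |deriv ψ w.1| * |φ w.2|) =
          (∫ w : ℝ × ℝ × ℝ × ℝ, (((1 + |k w.1|) * ψ w.1) * |φ w.2| +
          ψ w.1 * ‖fderiv ℝ φ w.2‖)) + ∫ w : ℝ × ℝ × ℝ × ℝ, |deriv ψ w.1| * |φ w.2| :=
          integral_add (i1.add i2) i3
        have r2 : (∫ w : ℝ × ℝ × ℝ × ℝ, (((1 + |k w.1|) * ψ w.1) * |φ w.2| +
          ψ w.1 * ‖fderiv ℝ φ w.2‖)) = (∫ w : ℝ × ℝ × ℝ × ℝ, ((1 + |k w.1|) * ψ w.1) * |φ w.2|) +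
          ∫ w : ℝ × ℝ × ℝ × ℝ, ψ w.1 * ‖fderiv ℝ φ w.2‖ := integral_add i1 i2
        rw [r1, r2]
      rw [e1]
      have m1 := mul_le_mul_of_nonneg_right a1.2 hN0'
      have m2 := mul_le_mul_of_nonneg_right a2 hN1'
      have m3 := mul_le_mul_of_nonneg_right p5 hN0'
      linarith
    refine le_trans ?_ hval
    have hmeas : AEStronglyMeasurable (fun w : ℝ × ℝ × ℝ × ℝ =>
        (1 + k (cv (qq w))) * |tens ψ φ (qq w)| + ‖fderiv ℝ (tens ψ φ) (qq w)‖) volume := by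
      have m1 : Measurable fun w : ℝ × ℝ × ℝ × ℝ => 1 + k (cv (qq w)) :=
        measurable_const.add (hkm.comp measurable_fst)
      have m2 : Continuous fun w : ℝ × ℝ × ℝ × ℝ => |tens ψ φ (qq w)| :=
        (hcd.continuous.comp qq_cont).abs
      have m3 : Continuous fun w : ℝ × ℝ × ℝ × ℝ => ‖fderiv ℝ (tens ψ φ) (qq w)‖ :=
        ((hcd.continuous_fderiv (by norm_num)).comp qq_cont).norm
      exact ((m1.mul m2.measurable).add m3.measurable).aestronglyMeasurable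
    have hint := Integrable.mono' isum hmeas (Filter.Eventually.of_forall hle)
    exact integral_mono hint isum fun w => (le_abs_self _).trans (hle w)
  exact hmain.trans (mul_le_mul_of_nonneg_left hright hL)

end Vale.Agent.P354r
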